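import Mathlib

/-!
# P338 / TS: from the implicit bound to the time-space inequality
-/

namespace Vale.Agent.Lib.P338.TS

lemma ts_pow_bound (q g k S T : ℕ) :
    q * (S ^ k * (g ^ S) ^ k) * (T + 1) + 1 ≤
      2 ^ (1 + Nat.clog 2 q + k * S + k * S * Nat.clog 2 g + Nat.clog 2 (T + 1)) := by
  have h1 : q ≤ 2 ^ Nat.clog 2 q := Nat.le_pow_clog (by norm_num) q
  have h2 : S ^ k ≤ 2 ^ (k * S) := by
    calc S ^ k ≤ (2 ^ S) ^ k := Nat.pow_le_pow_left (Nat.lt_two_pow_self).le k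
      _ = 2 ^ (k * S) := by rw [← pow_mul, mul_comm]
  have h3 : (g ^ S) ^ k ≤ 2 ^ (k * S * Nat.clog 2 g) := by
    calc (g ^ S) ^ k ≤ ((2 ^ Nat.clog 2 g) ^ S) ^ k :=
          Nat.pow_le_pow_left (Nat.pow_le_pow_left (Nat.le_pow_clog (by norm_num) g) S) k
      _ = 2 ^ (k * S * Nat.clog 2 g) := by
          rw [← pow_mul, ← pow_mul]
          congr 1
          ring
  have h4 : T + 1 ≤ 2 ^ Nat.clog 2 (T + 1) := Nat.le_pow_clog (by norm_num) (T + 1)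
  have h5 : q * (S ^ k * (g ^ S) ^ k) * (T + 1) ≤
      2 ^ Nat.clog 2 q * (2 ^ (k * S) * 2 ^ (k * S * Nat.clog 2 g)) * 2 ^ Nat.clog 2 (T + 1) :=
    Nat.mul_le_mul (Nat.mul_le_mul h1 (Nat.mul_le_mul h2 h3)) h4
  have h6 : 2 ^ Nat.clog 2 q * (2 ^ (k * S) * 2 ^ (k * S * Nat.clog 2 g)) *
      2 ^ Nat.clog 2 (T + 1)
      = 2 ^ (Nat.clog 2 q + k * S + k * S * Nat.clog 2 g + Nat.clog 2 (T + 1)) := by
    rw [pow_add, pow_add, pow_add]
    ring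
  have h7 : 1 ≤ 2 ^ (Nat.clog 2 q + k * S + k * S * Nat.clog 2 g + Nat.clog 2 (T + 1)) :=
    Nat.one_le_two_pow
  have h8 : 2 ^ (1 + Nat.clog 2 q + k * S + k * S * Nat.clog 2 g + Nat.clog 2 (T + 1))
      = 2 * 2 ^ (Nat.clog 2 q + k * S + k * S * Nat.clog 2 g + Nat.clog 2 (T + 1)) := by
    rw [← pow_succ']
    congr 1
    ring
  rw [h8]
  rw [h6] at h5
  omega

lemma ts_clog_bound (T : ℕ) (hT : 4 ≤ T) : (Nat.clog 2 (T + 1) : ℝ) ≤ 3 * Real.log T := by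
  have hlog2 : (0.6931471803 : ℝ) < Real.log 2 := Real.log_two_gt_d9
  have hTpos : (0 : ℝ) < T := by
    have : 0 < T := by omega
    exact_mod_cast this
  have h1 : 2 ^ (Nat.clog 2 (T + 1)).pred < T + 1 :=
    Nat.pow_pred_clog_lt_self (by norm_num) (by omega)
  have h2 : 2 ^ (Nat.clog 2 (T + 1)).pred ≤ T := by omega
  have h3 : ((2 : ℝ) ^ (Nat.clog 2 (T + 1)).pred) ≤ T := by exact_mod_cast h2
  have h4 : ((Nat.clog 2 (T + 1)).pred : ℝ) * Real.log 2 ≤ Real.log T := by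
    have := Real.log_le_log (by positivity) h3
    rwa [Real.log_pow] at this
  have h5 : (Nat.clog 2 (T + 1) : ℝ) ≤ ((Nat.clog 2 (T + 1)).pred : ℝ) + 1 := by
    have : Nat.clog 2 (T + 1) ≤ (Nat.clog 2 (T + 1)).pred + 1 := by
      rw [Nat.pred_eq_sub_one]
      omega
    exact_mod_cast this
  have h6 : 2 * Real.log 2 ≤ Real.log T := by
    have h4' : ((4 : ℕ) : ℝ) ≤ T := by exact_mod_cast hT
    have : Real.log 4 ≤ Real.log T := Real.log_le_log (by norm_num) (by simpa using h4')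
    have h44 : Real.log 4 = 2 * Real.log 2 := by
      rw [show (4 : ℝ) = 2 ^ 2 by norm_num, Real.log_pow]
      norm_num
    linarith
  have h7 : (0 : ℝ) ≤ ((Nat.clog 2 (T + 1)).pred : ℝ) := Nat.cast_nonneg _
  nlinarith

lemma ts_arith (q g k : ℕ) (hq : 1 ≤ q) (hg : 1 ≤ g) :
    ∃ c : ℝ, 0 < c ∧ ∀ n S T : ℕ, 2 ≤ n → 1 ≤ S → 2 * n ≤ T →
      (∀ Λ : ℕ, q * (S ^ k * (g ^ S) ^ k) * (T + 1) + 1 ≤ 2 ^ Λ → (n - 1) * (n + 1) ≤ 14 * Λ * T) →
      c * (n : ℝ) ^ 2 ≤ (T : ℝ) * ((S : ℝ) + Real.log T) := by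
  set C : ℝ := 4 + (Nat.clog 2 q : ℝ) + (k : ℝ) * (1 + (Nat.clog 2 g : ℝ)) with hC
  have hLq : (0 : ℝ) ≤ (Nat.clog 2 q : ℝ) := Nat.cast_nonneg _
  have hLg : (0 : ℝ) ≤ (Nat.clog 2 g : ℝ) := Nat.cast_nonneg _
  have hk : (0 : ℝ) ≤ (k : ℝ) := Nat.cast_nonneg _
  have hCpos : 0 < C := by
    have : 0 ≤ (k : ℝ) * (1 + (Nat.clog 2 g : ℝ)) := by positivity
    linarith
  refine ⟨3 / (56 * C), by positivity, ?_⟩
  intro n S T hn hS hT h
  have hmain := h _ (ts_pow_bound q g k S T)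
  have hT4 : 4 ≤ T := by omega
  have hclog := ts_clog_bound T hT4
  have hTpos : (0 : ℝ) < T := by
    have : 0 < T := by omega
    exact_mod_cast this
  have hS' : (1 : ℝ) ≤ S := by exact_mod_cast hS
  have hn' : (2 : ℝ) ≤ n := by exact_mod_cast hn
  have hlogT : 0 ≤ Real.log T := by
    apply Real.log_nonneg
    have : 1 ≤ T := by omega
    exact_mod_cast this
  have hcast : (((n - 1 : ℕ) : ℝ)) = (n : ℝ) - 1 := by
    rw [Nat.cast_sub (by omega)]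
    norm_num
  have hmainR : ((n : ℝ) - 1) * ((n : ℝ) + 1) ≤
      14 * (1 + (Nat.clog 2 q : ℝ) + (k : ℝ) * S + (k : ℝ) * S * (Nat.clog 2 g : ℝ)
        + (Nat.clog 2 (T + 1) : ℝ)) * T := by
    have := (Nat.cast_le (α := ℝ)).2 hmain
    push_cast at this
    rw [hcast] at this
    exact this
  have hLam : 1 + (Nat.clog 2 q : ℝ) + (k : ℝ) * S + (k : ℝ) * S * (Nat.clog 2 g : ℝ)
        + (Nat.clog 2 (T + 1) : ℝ) ≤ C * ((S : ℝ) + Real.log T) := by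
    have e1 : 1 + (Nat.clog 2 q : ℝ) ≤ (1 + (Nat.clog 2 q : ℝ)) * S := by nlinarith
    have e2 : 0 ≤ (k : ℝ) * (1 + (Nat.clog 2 g : ℝ)) := by positivity
    have e3 : C * ((S : ℝ) + Real.log T) =
        (1 + (Nat.clog 2 q : ℝ)) * S + 3 * S + (k : ℝ) * (1 + (Nat.clog 2 g : ℝ)) * S
          + 3 * Real.log T + (1 + (Nat.clog 2 q : ℝ)) * Real.log T
          + (k : ℝ) * (1 + (Nat.clog 2 g : ℝ)) * Real.log T := by
      rw [hC]
      ring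
    have e4 : 0 ≤ (1 + (Nat.clog 2 q : ℝ)) * Real.log T := by positivity
    have e5 : 0 ≤ (k : ℝ) * (1 + (Nat.clog 2 g : ℝ)) * Real.log T := by positivity
    rw [e3]
    nlinarith
  have hsq : 3 / 4 * (n : ℝ) ^ 2 ≤ ((n : ℝ) - 1) * ((n : ℝ) + 1) := by nlinarith
  have hfin : 3 / 4 * (n : ℝ) ^ 2 ≤ 14 * (C * ((S : ℝ) + Real.log T)) * T := by
    refine le_trans hsq (le_trans hmainR ?_)
    apply mul_le_mul_of_nonneg_right _ hTpos.le
    linarith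
  have : 3 / (56 * C) * (n : ℝ) ^ 2 = (3 / 4 * (n : ℝ) ^ 2) / (14 * C) := by
    field_simp
    ring
  rw [this, div_le_iff₀ (by positivity)]
  calc 3 / 4 * (n : ℝ) ^ 2 ≤ 14 * (C * ((S : ℝ) + Real.log T)) * T := hfin
    _ = (T : ℝ) * ((S : ℝ) + Real.log T) * (14 * C) := by ring

end Vale.Agent.Lib.P338.TS
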