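import Mathlib

/-!
# P338 / TS: small work space forces time n log n
-/

namespace Vale.Agent.Lib.P338.TS

lemma ts_arith3 (c : ℝ) (hc : 0 < c) (K : ℝ) :
    ∃ c' : ℝ, 0 < c' ∧ ∀ n S T : ℕ, 2 ≤ n → 1 ≤ S →
      c * (n : ℝ) ^ 2 ≤ (T : ℝ) * ((S : ℝ) + Real.log T) →
      (S : ℝ) ≤ K * ((n : ℝ) / Real.log n) → c' * ((n : ℝ) * Real.log n) ≤ (T : ℝ) := by
  have hK8 : 0 < |K| + 8 := by positivity
  refine ⟨min 1 (c / (|K| + 8)), lt_min one_pos (div_pos hc hK8), ?_⟩
  intro n S T hn hS h1 h2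
  have hn2 : (2 : ℝ) ≤ n := by exact_mod_cast hn
  have hn0 : (0 : ℝ) < n := by linarith
  have hln : 0 < Real.log n := Real.log_pos (by linarith)
  have hlen : Real.log n ≤ n := (Real.log_le_sub_one_of_pos hn0).trans (by linarith)
  have hnl : 0 < (n : ℝ) * Real.log n := mul_pos hn0 hln
  by_cases hT : (n : ℝ) ^ 2 ≤ T
  · calc min 1 (c / (|K| + 8)) * ((n : ℝ) * Real.log n) ≤ 1 * ((n : ℝ) * Real.log n) :=
          mul_le_mul_of_nonneg_right (min_le_left _ _) hnl.le
      _ = (n : ℝ) * Real.log n := one_mul _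
      _ ≤ (n : ℝ) * n := mul_le_mul_of_nonneg_left hlen hn0.le
      _ = (n : ℝ) ^ 2 := by ring
      _ ≤ T := hT
  · rw [not_le] at hT
    have hT1 : 1 ≤ T := by
      rcases Nat.eq_zero_or_pos T with h0 | h0
      · exfalso
        subst h0
        simp only [Nat.cast_zero, zero_mul] at h1
        have : 0 < c * (n : ℝ) ^ 2 := by positivity
        linarith
      · exact h0
    have hT0 : (0 : ℝ) < T := by exact_mod_cast hT1
    have hlogT : Real.log T ≤ 2 * Real.log n := by
      have := Real.log_le_log hT0 hT.le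
      rw [Real.log_pow] at this
      simpa using this
    -- (log n)^2 ≤ 4 n
    have hsq : Real.log n ^ 2 ≤ 4 * n := by
      have hs0 : 0 < Real.sqrt n := Real.sqrt_pos.mpr hn0
      have hs : Real.log (Real.sqrt n) ≤ Real.sqrt n :=
        (Real.log_le_sub_one_of_pos hs0).trans (by linarith)
      have hl : Real.log n = 2 * Real.log (Real.sqrt n) := by
        rw [Real.log_sqrt hn0.le]; ring
      have hl0 : 0 ≤ Real.log (Real.sqrt n) := by
        rw [hl] at hln; linarith
      have hss : Real.sqrt n ^ 2 = n := Real.sq_sqrt hn0.le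
      rw [hl]
      nlinarith
    have hq : Real.log n ≤ 4 * ((n : ℝ) / Real.log n) := by
      rw [← mul_div_assoc, le_div_iff₀ hln]
      nlinarith
    have hnq : 0 < (n : ℝ) / Real.log n := div_pos hn0 hln
    have hsum : (S : ℝ) + Real.log T ≤ (|K| + 8) * ((n : ℝ) / Real.log n) := by
      have hK : K * ((n : ℝ) / Real.log n) ≤ |K| * ((n : ℝ) / Real.log n) :=
        mul_le_mul_of_nonneg_right (le_abs_self K) hnq.le
      nlinarith
    have h3 : c * (n : ℝ) ^ 2 ≤ (T : ℝ) * ((|K| + 8) * ((n : ℝ) / Real.log n)) :=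
      h1.trans (mul_le_mul_of_nonneg_left hsum hT0.le)
    have h4 : c / (|K| + 8) * ((n : ℝ) * Real.log n) ≤ T := by
      have h5 : (T : ℝ) * ((|K| + 8) * ((n : ℝ) / Real.log n))
          = (T : ℝ) * (|K| + 8) * n / Real.log n := by ring
      rw [h5, le_div_iff₀ hln] at h3
      rw [div_mul_eq_mul_div, div_le_iff₀ hK8]
      have h6 : c * (n : ℝ) ^ 2 * Real.log n = (c * ((n : ℝ) * Real.log n)) * n := by ring
      have h7 : (T : ℝ) * (|K| + 8) * n = ((T : ℝ) * (|K| + 8)) * n := by ring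
      rw [h6, h7] at h3
      exact le_of_mul_le_mul_right h3 hn0
    exact (mul_le_mul_of_nonneg_right (min_le_right _ _) hnl.le).trans h4

end Vale.Agent.Lib.P338.TS
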