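import Mathlib
import Vale.Agent.Lib.P338.Model

/-!
# P338 / TS: multitape machines with a one-way output tape; work space
-/

namespace Vale.Agent.Lib.P338.TS

open Vale.Agent.Lib.P338

/-- Tape `0` is the input tape, tape `1` the output tape, and the output tape is one-way and
write-only: each step either writes a blank and stays (does nothing) or writes and moves right.
The tapes `2, ..., k + 1` are unrestricted work tapes (and so is the input tape). -/
def OneWayOutK {k : ℕ} (M : Machine (k + 2)) : Prop :=
  M.inp = 0 ∧ M.out = 1 ∧
  ∀ (q : M.Q) (a : Fin (k + 2) → M.Γ) (r : M.Q × (Fin (k + 2) → M.Γ × Move)), M.δ q a = some r →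
    (r.2 1 = (M.sym Sym.blank, Move.stay) ∨ (r.2 1).2 = Move.right)

/-- On the inputs of length `n` the heads of the work tapes `2, ..., k + 1` never leave the first
`S` cells. -/
def SpaceBound {k : ℕ} (M : Machine (k + 2)) (n S : ℕ) : Prop :=
  ∀ (x y : Fin n → Bool) (t : ℕ) (c : Cfg M), run M t (init M x y) = some c →
    ∀ j : Fin k, c.head j.succ.succ < S

end Vale.Agent.Lib.P338.TS
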