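import Mathlib
import Vale.Agent.Lib.P338.TS.Space
import Vale.Agent.Lib.P338.OW.OneWay
import Vale.Agent.Lib.P338.OW.MultAt

/-!
# P338 / TS: absorbing work tapes of bounded length into the finite control

From a machine with tapes `0, 1, 2, ..., k + 1` we build a machine with the two tapes `0, 1` whose
states are (state, positions of the work heads, contents of the first `s + 1` cells of the work
tapes).
-/

namespace Vale.Agent.Lib.P338.TS

open Vale.Agent.Lib.P338

/-- A position cut off at `s`. -/
def clamp (s p : ℕ) : Fin (s + 1) := ⟨min p s, Nat.lt_succ_of_le (Nat.min_le_right _ _)⟩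

variable {k : ℕ} (M : Machine (k + 2)) (s : ℕ)

/-- States of the two-tape machine. -/
abbrev PQ : Type := M.Q × (Fin k → Fin (s + 1)) × (Fin k → Fin (s + 1) → M.Γ)

/-- The symbols read on all tapes. -/
def rdAll (a : Fin 2 → M.Γ) (hd : Fin k → Fin (s + 1)) (tp : Fin k → Fin (s + 1) → M.Γ) :
    Fin (k + 2) → M.Γ :=
  Fin.cons (a 0) (Fin.cons (a 1) (fun j => tp j (hd j)))

/-- The two-tape machine. -/
def prodM : Machine 2 where
  Q := PQ M s
  Γ := M.Γ
  finQ := by
    haveI := M.finQ
    haveI := M.finΓ
    exact inferInstance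
  finΓ := M.finΓ
  start := (M.start, fun _ => 0, fun _ _ => M.sym Sym.blank)
  sym := M.sym
  sym_inj := M.sym_inj
  δ := fun P a => (M.δ P.1 (rdAll M s a P.2.1 P.2.2)).map fun r =>
    ((r.1, fun j => clamp s ((r.2 j.succ.succ).2.apply (P.2.1 j)),
      fun j => Function.update (P.2.2 j) (P.2.1 j) (r.2 j.succ.succ).1),
     fun i => if i = 0 then r.2 0 else r.2 1)
  inp := 0
  out := 1

/-- The configuration of the two-tape machine that represents a configuration of `M`. -/
def absC (c : Cfg M) : Cfg (prodM M s) where
  q := (c.q, fun j => clamp s (c.head j.succ.succ), fun j i => c.tape j.succ.succ i)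
  head := fun i => if i = 0 then c.head 0 else c.head 1
  tape := fun i => if i = 0 then c.tape 0 else c.tape 1

/-- All configurations reachable from `c` have their work heads on the cells `0, ..., s`. -/
def Bdd (c : Cfg M) : Prop :=
  ∀ (t : ℕ) (c' : Cfg M), run M t c = some c' → ∀ j : Fin k, c'.head j.succ.succ ≤ s

end Vale.Agent.Lib.P338.TS
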