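import Mathlib
import Vale.Agent.Lib.P338.TS.Defs

/-!
# P338 / TS: the number of states of the two-tape machine
-/

namespace Vale.Agent.Lib.P338.TS

open Vale.Agent.Lib.P338

variable {k : ℕ} (M : Machine (k + 2)) (s : ℕ)

lemma card_prodM :
    Nat.card (prodM M s).Q = Nat.card M.Q * ((s + 1) ^ k * (Nat.card M.Γ ^ (s + 1)) ^ k) := by
  have := M.finQ
  have := M.finΓ
  change Nat.card (M.Q × (Fin k → Fin (s + 1)) × (Fin k → Fin (s + 1) → M.Γ)) = _
  rw [Nat.card_prod, Nat.card_prod, Nat.card_fun, Nat.card_fun, Nat.card_fun]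
  simp

end Vale.Agent.Lib.P338.TS
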