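import Mathlib
import Vale.Agent.Lib.P338.OW.Final
import Vale.Agent.Lib.P338.OW.MultAt

/-!
# P338 / TS: the bound for two tapes, for one input length
-/

namespace Vale.Agent.Lib.P338.TS

open Vale.Agent.Lib.P338 Vale.Agent.Lib.P338.OW

lemma ow_time_ge (M : Machine 2) (hOW : OneWayOut M) {n : ℕ} (hn : 1 ≤ n) (hM : MultAt M n) :
    2 * n ≤ worstTime M n :=
  time_ge hOW hM hn

lemma ow_at (M : Machine 2) (hOW : OneWayOut M) {n : ℕ} (hn : 1 ≤ n) (hM : MultAt M n) (Λ : ℕ)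
    (hΛ : Nat.card M.Q * (worstTime M n + 1) + 1 ≤ 2 ^ Λ) :
    (n - 1) * (n + 1) ≤ 14 * Λ * worstTime M n :=
  final_at M hOW hn hM Λ hΛ

end Vale.Agent.Lib.P338.TS
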