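import Mathlib
import Vale.Agent.Lib.P338.TS.Defs

/-!
# P338 / TS: the two-tape machine simulates one step
-/

namespace Vale.Agent.Lib.P338.TS

open Vale.Agent.Lib.P338

variable {k : ℕ} (M : Machine (k + 2)) (s : ℕ)

lemma clamp_val_of_le {s p : ℕ} (h : p ≤ s) : ((clamp s p : Fin (s + 1)) : ℕ) = p := by
  simp [clamp, h]

lemma cfg_ext {k : ℕ} {M : Machine k} (a b : Cfg M) (h1 : a.q = b.q) (h2 : a.head = b.head)
    (h3 : a.tape = b.tape) : a = b := by
  cases a
  cases b
  simp_all

lemma read_abs (c : Cfg M) (hb : ∀ j : Fin k, c.head j.succ.succ ≤ s) :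
    rdAll M s (fun i => (absC M s c).tape i ((absC M s c).head i)) (absC M s c).q.2.1
      (absC M s c).q.2.2 = fun i => c.tape i (c.head i) := by
  funext i
  refine Fin.cases ?_ (fun i => Fin.cases ?_ (fun j => ?_) i) i
  · rfl
  · rfl
  · show c.tape j.succ.succ ((clamp s (c.head j.succ.succ) : Fin (s + 1)) : ℕ) = _
    rw [clamp_val_of_le (hb j)]

lemma step_abs (c : Cfg M) (hb : ∀ j : Fin k, c.head j.succ.succ ≤ s) :
    step (prodM M s) (absC M s c) = (step M c).map (absC M s) := by
  have hδ : (prodM M s).δ (absC M s c).q
      (fun i => (absC M s c).tape i ((absC M s c).head i))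
      = (M.δ c.q (fun i => c.tape i (c.head i))).map fun r =>
        (((r.1, fun j => clamp s ((r.2 j.succ.succ).2.apply ((absC M s c).q.2.1 j)),
          fun j => Function.update ((absC M s c).q.2.2 j) ((absC M s c).q.2.1 j)
            (r.2 j.succ.succ).1) : PQ M s),
         fun i : Fin 2 => if i = 0 then r.2 0 else r.2 1) := by
    show (M.δ (absC M s c).q.1 (rdAll M s _ (absC M s c).q.2.1 (absC M s c).q.2.2)).map _ = _
    rw [read_abs M s c hb]
    rfl
  unfold step
  rw [hδ]
  cases h : M.δ c.q (fun i => c.tape i (c.head i)) with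
  | none => rfl
  | some r =>
    show some _ = some _
    apply congrArg some
    have hq1 : (fun j : Fin k => clamp s ((r.2 j.succ.succ).2.apply
          (((clamp s (c.head j.succ.succ) : Fin (s + 1)) : ℕ))))
        = fun j : Fin k => clamp s ((r.2 j.succ.succ).2.apply (c.head j.succ.succ)) := by
      funext j
      rw [clamp_val_of_le (hb j)]
    have hq2 : (fun j : Fin k => Function.update (fun i : Fin (s + 1) => c.tape j.succ.succ i)
          (clamp s (c.head j.succ.succ)) (r.2 j.succ.succ).1)
        = fun (j : Fin k) (i : Fin (s + 1)) =>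
          Function.update (c.tape j.succ.succ) (c.head j.succ.succ) (r.2 j.succ.succ).1 i := by
      funext j i
      by_cases hi : i = clamp s (c.head j.succ.succ)
      · subst hi
        rw [Function.update_self, clamp_val_of_le (hb j), Function.update_self]
      · have hi' : (i : ℕ) ≠ c.head j.succ.succ := by
          intro h'
          apply hi
          apply Fin.ext
          rw [clamp_val_of_le (hb j)]
          exact h'
        rw [Function.update_of_ne hi, Function.update_of_ne hi']
    apply cfg_ext
    · exact Prod.ext rfl (Prod.ext hq1 hq2)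
    · funext i
      refine Fin.cases ?_ (fun i => Fin.cases ?_ (fun j => j.elim0) i) i
      · rfl
      · rfl
    · funext i
      refine Fin.cases ?_ (fun i => Fin.cases ?_ (fun j => j.elim0) i) i
      · rfl
      · rfl

end Vale.Agent.Lib.P338.TS
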