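import Mathlib
import Vale.Agent.Lib.P338.TS.StepAbs

/-!
# P338 / TS: the two-tape machine simulates whole runs
-/

namespace Vale.Agent.Lib.P338.TS

open Vale.Agent.Lib.P338

variable {k : ℕ} (M : Machine (k + 2)) (s : ℕ)

lemma bdd_step {c c' : Cfg M} (hb : Bdd M s c) (h : step M c = some c') : Bdd M s c' := by
  intro t c'' hrun
  refine hb (t + 1) c'' ?_
  show (step M c).bind (run M t) = some c''
  rw [h]
  exact hrun

lemma run_abs : ∀ (t : ℕ) (c : Cfg M), Bdd M s c →
    run (prodM M s) t (absC M s c) = (run M t c).map (absC M s) := by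
  intro t
  induction t with
  | zero =>
    intro c _
    rfl
  | succ t ih =>
    intro c hb
    show (step (prodM M s) (absC M s c)).bind (run (prodM M s) t) =
      ((step M c).bind (run M t)).map (absC M s)
    rw [step_abs M s c (hb 0 c rfl)]
    cases h : step M c with
    | none => rfl
    | some c' =>
      show run (prodM M s) t (absC M s c') = (run M t c').map (absC M s)
      exact ih c' (bdd_step M s hb h)

private lemma cfg_ext_run {m : ℕ} {N : Machine m} {a b : Cfg N} (hq : a.q = b.q)
    (hh : a.head = b.head) (ht : a.tape = b.tape) : a = b := by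
  cases a
  cases b
  simp only at hq hh ht
  subst hq
  subst hh
  subst ht
  rfl

lemma init_abs (hinp : M.inp = 0) {n : ℕ} (x y : Fin n → Bool) :
    absC M s (init M x y) = init (prodM M s) x y := by
  have h2 : ∀ j : Fin k, (j.succ.succ : Fin (k + 2)) ≠ 0 := fun j => Fin.succ_ne_zero _
  have h1 : (1 : Fin (k + 2)) ≠ 0 := Fin.succ_ne_zero (0 : Fin (k + 1))
  apply cfg_ext_run
  · show ((M.start, (fun j => clamp s 0),
        (fun j i => if j.succ.succ = M.inp then M.sym (inputCell x y i) else M.sym Sym.blank)) :
        PQ M s) = (M.start, (fun _ => 0), (fun _ _ => M.sym Sym.blank))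
    refine Prod.ext rfl (Prod.ext ?_ ?_)
    · funext j
      apply Fin.ext
      simp [clamp]
    · funext j i
      simp [hinp, h2 j]
  · funext i
    show (if i = 0 then 0 else 0) = 0
    simp
  · funext i p
    show (if i = 0 then (init M x y).tape 0 else (init M x y).tape 1) p =
      if i = 0 then M.sym (inputCell x y p) else M.sym Sym.blank
    by_cases hi : i = 0
    · simp [hi, hinp, init]
    · simp [hi, hinp, h1, init]

end Vale.Agent.Lib.P338.TS
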