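import Mathlib
import Vale.Agent.Lib.P338.TS.RunAbs
import Vale.Agent.Lib.P338.OW.Basic

/-!
# P338 / TS: running time, correctness and the one-way property pass to the two-tape machine
-/

namespace Vale.Agent.Lib.P338.TS

open Vale.Agent.Lib.P338 Vale.Agent.Lib.P338.OW

variable {k : ℕ} (M : Machine (k + 2)) (s : ℕ)

lemma halts_abs (hinp : M.inp = 0) {n : ℕ} (hS : SpaceBound M n (s + 1)) {x y : Fin n → Bool}
    {t : ℕ} {c : Cfg M} (h : HaltsWith M x y t c) :
    HaltsWith (prodM M s) x y t (absC M s c) := by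
  have hb : Bdd M s (init M x y) := by
    intro t' c' hrun j
    exact Nat.lt_succ_iff.1 (hS x y t' c' hrun j)
  refine ⟨?_, ?_⟩
  · rw [← init_abs M s hinp, run_abs M s t _ hb, h.1]
    rfl
  · have hc : ∀ j : Fin k, c.head j.succ.succ ≤ s := hb t c h.1
    rw [step_abs M s c hc, h.2]
    rfl

lemma worstTime_abs (hinp : M.inp = 0) (hM : Multiplies M) {n : ℕ} (hn : 1 ≤ n)
    (hS : SpaceBound M n (s + 1)) : worstTime (prodM M s) n = worstTime M n := by
  unfold worstTime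
  congr 1
  funext p
  obtain ⟨t, c, hH, -⟩ := hM n hn p.1 p.2
  rw [haltTime_eq M hH, haltTime_eq (prodM M s) (halts_abs M s hinp hS hH)]

lemma multAt_abs (hOW : OneWayOutK M) (hM : Multiplies M) {n : ℕ} (hn : 1 ≤ n)
    (hS : SpaceBound M n (s + 1)) : MultAt (prodM M s) n := by
  intro x y
  obtain ⟨t, c, hH, hout⟩ := hM n hn x y
  refine ⟨t, absC M s c, halts_abs M s hOW.1 hS hH, ?_⟩
  intro i hi
  have h1 := hout i hi
  rw [hOW.2.1] at h1
  show (if (1 : Fin 2) = 0 then c.tape 0 else c.tape 1) i = M.sym _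
  rw [if_neg (by decide)]
  exact h1

lemma oneWay_abs (hOW : OneWayOutK M) : OneWayOut (prodM M s) := by
  refine ⟨rfl, rfl, ?_⟩
  intro (q : PQ M s) (a : Fin 2 → M.Γ) (r : PQ M s × (Fin 2 → M.Γ × Move)) hr
  have hr' : (M.δ q.1 (rdAll M s a q.2.1 q.2.2)).map (fun r =>
      (((r.1, fun j => clamp s ((r.2 j.succ.succ).2.apply (q.2.1 j)),
        fun j => Function.update (q.2.2 j) (q.2.1 j) (r.2 j.succ.succ).1) : PQ M s),
       fun i : Fin 2 => if i = 0 then r.2 0 else r.2 1)) = some r := hr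
  obtain ⟨r0, hr0, hrr⟩ := Option.map_eq_some_iff.1 hr'
  have h2 := hOW.2.2 _ _ r0 hr0
  have h3 : r.2 1 = r0.2 1 := by
    rw [← hrr]
    show (if (1 : Fin 2) = 0 then r0.2 0 else r0.2 1) = r0.2 1
    rw [if_neg (by decide)]
  show r.2 1 = (M.sym Sym.blank, Move.stay) ∨ (r.2 1).2 = Move.right
  rw [h3]
  exact h2

end Vale.Agent.Lib.P338.TS
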