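import Mathlib
import Vale.Agent.Lib.P338.TS.Transfer
import Vale.Agent.Lib.P338.TS.Card
import Vale.Agent.Lib.P338.TS.OWAt
import Vale.Agent.Lib.P338.TS.Arith
import Vale.Agent.Lib.P338.TS.Arith3

/-!
# P338 / TS: assembly
-/

namespace Vale.Agent.Lib.P338.TS

open Vale.Agent.Lib.P338 Vale.Agent.Lib.P338.OW

theorem final (k : ℕ) (M : Machine (k + 2)) (hOW : OneWayOutK M) (hM : Multiplies M) :
    (∀ n S Λ : ℕ, 1 ≤ n → 1 ≤ S → SpaceBound M n S →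
      Nat.card M.Q * (S ^ k * (Nat.card M.Γ ^ S) ^ k) * (worstTime M n + 1) + 1 ≤ 2 ^ Λ →
      (n - 1) * (n + 1) ≤ 14 * Λ * worstTime M n) ∧
    (∃ c : ℝ, 0 < c ∧ ∀ n S : ℕ, 2 ≤ n → 1 ≤ S → SpaceBound M n S →
      c * (n : ℝ) ^ 2 ≤ (worstTime M n : ℝ) * ((S : ℝ) + Real.log (worstTime M n))) ∧
    (∀ K : ℝ, ∃ c : ℝ, 0 < c ∧ ∀ n S : ℕ, 2 ≤ n → 1 ≤ S → SpaceBound M n S →
      (S : ℝ) ≤ K * ((n : ℝ) / Real.log n) →
      c * ((n : ℝ) * Real.log n) ≤ (worstTime M n : ℝ)) := by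
  have hq : 1 ≤ Nat.card M.Q := by
    have := M.finQ
    have : Nonempty M.Q := ⟨M.start⟩
    exact Nat.succ_le_of_lt Nat.card_pos
  have hg : 1 ≤ Nat.card M.Γ := by
    have := M.finΓ
    have : Nonempty M.Γ := ⟨M.sym Sym.blank⟩
    exact Nat.succ_le_of_lt Nat.card_pos
  have h1 : ∀ n S Λ : ℕ, 1 ≤ n → 1 ≤ S → SpaceBound M n S →
      Nat.card M.Q * (S ^ k * (Nat.card M.Γ ^ S) ^ k) * (worstTime M n + 1) + 1 ≤ 2 ^ Λ →
      (n - 1) * (n + 1) ≤ 14 * Λ * worstTime M n := by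
    intro n S Λ hn hS hSB hΛ
    obtain ⟨s, rfl⟩ : ∃ s, S = s + 1 := ⟨S - 1, by omega⟩
    have h := ow_at (prodM M s) (oneWay_abs M s hOW) hn (multAt_abs M s hOW hM hn hSB) Λ
    rw [worstTime_abs M s hOW.1 hM hn hSB, card_prodM] at h
    exact h hΛ
  have hT : ∀ n S : ℕ, 1 ≤ n → 1 ≤ S → SpaceBound M n S → 2 * n ≤ worstTime M n := by
    intro n S hn hS hSB
    obtain ⟨s, rfl⟩ : ∃ s, S = s + 1 := ⟨S - 1, by omega⟩
    have h := ow_time_ge (prodM M s) (oneWay_abs M s hOW) hn (multAt_abs M s hOW hM hn hSB)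
    rwa [worstTime_abs M s hOW.1 hM hn hSB] at h
  obtain ⟨c, hc, h2⟩ := ts_arith (Nat.card M.Q) (Nat.card M.Γ) k hq hg
  have h2' : ∀ n S : ℕ, 2 ≤ n → 1 ≤ S → SpaceBound M n S →
      c * (n : ℝ) ^ 2 ≤ (worstTime M n : ℝ) * ((S : ℝ) + Real.log (worstTime M n)) := by
    intro n S hn hS hSB
    exact h2 n S (worstTime M n) hn hS (hT n S (by omega) hS hSB)
      (fun Λ hΛ => h1 n S Λ (by omega) hS hSB hΛ)
  refine ⟨h1, ⟨c, hc, h2'⟩, ?_⟩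
  intro K
  obtain ⟨c', hc', h3⟩ := ts_arith3 c hc K
  exact ⟨c', hc', fun n S hn hS hSB hK => h3 n S (worstTime M n) hn hS (h2' n S hn hS hSB) hK⟩

end Vale.Agent.Lib.P338.TS
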